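import Vale.Agent.P092SB.Stone
import Mathlib.Analysis.Complex.CoveringMap
import Mathlib.Topology.Homotopy.Lifting
import Mathlib.Analysis.Convex.Contractible
import Mathlib.Topology.Order.AtTopBotIxx
import Mathlib.Topology.Instances.RealVectorSpace

/-!
P092 (helper40): projective one parameter groups lift to true ones; continuous characters of the line.
-/

set_option linter.all false

open scoped InnerProductSpace ENNReal NNReal ComplexConjugate
open MeasureTheory Filter Topology ContinuousLinearMap Set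

namespace Vale.Agent.P092SB

open Vale.Agent.P092CP (Bd)
open Vale.Agent.P092RD Vale.Agent.P092RD.POM

theorem exists_arg {A : Type} [TopologicalSpace A] [SimplyConnectedSpace A]
    [LocallyPathConnectedSpace A] (a₀ : A) {g : A → ℂ} (hg : Continuous g) (h1 : ∀ a, ‖g a‖ = 1) :
    ∃ b : A → ℝ, Continuous b ∧ ∀ a, Complex.exp (b a * Complex.I) = g a := by
  have h0 : ∀ a, g a ≠ 0 := fun a h => by simpa [h] using h1 a
  obtain ⟨f, ⟨-, hf⟩, -⟩ := Complex.isCoveringMapOn_exp.existsUnique_continuousMap_lifts ⟨g, hg⟩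
    (Complex.exp_log (h0 a₀)) h0
  have e : ∀ a, Complex.exp (f a) = g a := fun a => congrFun hf a
  refine ⟨fun a => (f a).im, Complex.continuous_im.comp f.continuous, fun a => ?_⟩
  have h2 : (f a).re = 0 := by
    have := h1 a
    rwa [← e, Complex.norm_exp, Real.exp_eq_one_iff] at this
  rw [← e]
  congr 1
  exact Complex.ext (by simp [h2]) (by simp)

theorem const_of_exp {A : Type} [TopologicalSpace A] [PreconnectedSpace A] {D : A → ℝ}
    (hD : Continuous D) (h : ∀ a, Complex.exp (D a * Complex.I) = 1) (a a' : A) : D a = D a' := by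
  have := Complex.isCoveringMap_exp.const_of_comp (g := fun a => (D a : ℂ) * Complex.I)
    (by fun_prop) (fun a a' => Subtype.ext ((h a).trans (h a').symm)) a a'
  simpa using this

/-- **(C)** continuous unitary characters of the line -/
theorem char {χ : ℝ → ℂ} (hc : Continuous χ) (hm : ∀ s t, χ (s + t) = χ s * χ t)
    (h1 : ∀ t, ‖χ t‖ = 1) : ∃ k : ℝ, ∀ t : ℝ, χ t = Complex.exp (t * k * Complex.I) := by
  obtain ⟨b, hb, e⟩ := exists_arg (0 : ℝ) hc h1
  have h0 : χ 0 = 1 := by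
    have h2 : χ 0 ≠ 0 := fun h => by simpa [h] using h1 0
    have := hm 0 0
    rw [add_zero] at this
    exact (mul_eq_left₀ h2).1 this.symm
  have hD : ∀ s t, b (s + t) - b s - b t = b (0 + 0) - b 0 - b 0 := fun s t =>
    const_of_exp (D := fun p : ℝ × ℝ => b (p.1 + p.2) - b p.1 - b p.2) (by fun_prop) (fun p => by
      have h2 : ∀ t, χ t ≠ 0 := fun t h => by simpa [h] using h1 t
      push_cast
      rw [sub_mul, sub_mul, Complex.exp_sub, Complex.exp_sub, e, e, e, hm]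
      field_simp [h2]) (s, t) (0, 0)
  let L : ℝ →+ ℝ := AddMonoidHom.mk' (fun t => b t - b 0) fun s t => by
    have := hD s t
    rw [add_zero] at this
    linarith
  refine ⟨L 1, fun t => ?_⟩
  have h3 : L (t • (1 : ℝ)) = t • L 1 := map_real_smul L (show Continuous fun t => b t - b 0 by fun_prop) t 1
  rw [smul_eq_mul, mul_one, smul_eq_mul] at h3
  have h4 : b t = b 0 + t * L 1 := by rw [← h3]; change b t = b 0 + (b t - b 0); ring
  rw [← e, h4]
  push_cast
  rw [add_mul, Complex.exp_add, e, h0, one_mul]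

/-- continuous real cocycles on the line are coboundaries -/
theorem cobd {β : ℝ → ℝ → ℝ} (hc : Continuous β.uncurry)
    (co : ∀ s t r, β s t + β (s + t) r = β t r + β s (t + r)) :
    ∃ γ : ℝ → ℝ, Continuous γ ∧ ∀ s t, β s t = γ s + γ t - γ (s + t) := by
  have c1 : ∀ s, Continuous (β s) := fun s => hc.uncurry_left s
  have c2 : Continuous fun r => β r 1 := hc.uncurry_right 1
  have i1 : ∀ s a b, IntervalIntegrable (β s) volume a b := fun s => (c1 s).intervalIntegrable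
  have i2 : ∀ a b, IntervalIntegrable (fun r => β r 1) volume a b := c2.intervalIntegrable
  refine ⟨fun s => (∫ r in (0 : ℝ)..1, β s r) - ∫ r in (0 : ℝ)..s, β r 1,
    (intervalIntegral.continuous_parametric_intervalIntegral_of_continuous' hc 0 1).sub
      (intervalIntegral.continuous_primitive i2 0), fun s t => ?_⟩
  have i3 : ∀ t a b, IntervalIntegrable (fun r => β s (t + r)) volume a b := fun t =>
    Continuous.intervalIntegrable ((c1 s).comp (by fun_prop))
  have i4 : ∀ a b, IntervalIntegrable (fun r => β (s + r) 1) volume a b :=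
    Continuous.intervalIntegrable (c2.comp (f := fun r => s + r) (by fun_prop))
  have i5 : ∀ a b, IntervalIntegrable (fun r => β s (r + 1)) volume a b :=
    Continuous.intervalIntegrable ((c1 s).comp (by fun_prop))
  have e1 : β s t + ∫ r in (0 : ℝ)..1, β (s + t) r
      = (∫ r in (0 : ℝ)..1, β t r) + ∫ r in t..t + 1, β s r := by
    have h1 : ∫ r in (0 : ℝ)..1, (β s t + β (s + t) r) = ∫ r in (0 : ℝ)..1, (β t r + β s (t + r)) := by
      simp_rw [co]
    rw [intervalIntegral.integral_add (by simp) (i1 _ _ _), intervalIntegral.integral_add (i1 _ _ _)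
      (i3 _ _ _), intervalIntegral.integral_comp_add_left (β s) t] at h1
    simpa using h1
  have e2 : (∫ r in (0 : ℝ)..t, β s r) + ∫ r in s..s + t, β r 1
      = (∫ r in (0 : ℝ)..t, β r 1) + ∫ r in (1 : ℝ)..t + 1, β s r := by
    have h1 : ∫ r in (0 : ℝ)..t, (β s r + β (s + r) 1) = ∫ r in (0 : ℝ)..t, (β r 1 + β s (r + 1)) := by
      simp_rw [co]
    rw [intervalIntegral.integral_add (i1 _ _ _) (i4 _ _),
      intervalIntegral.integral_add (i2 _ _) (i5 _ _),
      intervalIntegral.integral_comp_add_left (fun r => β r 1) s,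
      intervalIntegral.integral_comp_add_right (β s) 1] at h1
    simpa using h1
  have e3 := intervalIntegral.integral_add_adjacent_intervals (i1 s 0 t) (i1 s t (t + 1))
  have e4 := intervalIntegral.integral_add_adjacent_intervals (i1 s 0 1) (i1 s 1 (t + 1))
  have e5 := intervalIntegral.integral_add_adjacent_intervals (i2 0 s) (i2 s (s + t))
  linarith

variable {K : Type} [NormedAddCommGroup K] [InnerProductSpace ℂ K] [CompleteSpace K]

/-- a family of sets of operators graded by the line, with scalars in degree zero -/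
structure Gr (X : ℝ → Set (K →L[ℂ] K)) : Prop where
  mul : ∀ s t a b, a ∈ X s → b ∈ X t → a * b ∈ X (s + t)
  star : ∀ t a, a ∈ X t → star a ∈ X (-t)
  smul : ∀ t (c : ℂ) a, a ∈ X t → c • a ∈ X t
  zero : ∀ a, a ∈ X 0 → ∃ c : ℂ, a = c • 1

namespace Gr

variable {X : ℝ → Set (K →L[ℂ] K)}

theorem eq_smul (h : Gr X) {t : ℝ} {u a : K →L[ℂ] K} (hu : u ∈ X t) (h1 : u * Star.star u = 1)
    (ha : a ∈ X t) : ∃ c : ℂ, a = c • u := by
  obtain ⟨c, hc⟩ := h.zero _ (by simpa using h.mul _ _ _ _ (h.star _ _ hu) ha)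
  exact ⟨c, by rw [← one_mul a, ← h1, mul_assoc, hc, mul_smul_comm, mul_one]⟩

theorem unitary (h : Gr X) {t : ℝ} {a : K →L[ℂ] K} (ha : a ∈ X t) {ξ : K} (hξ : ‖ξ‖ = 1)
    (h1 : ‖a ξ‖ = 1) : a ∈ unitary (K →L[ℂ] K) := by
  obtain ⟨c, hc⟩ := h.zero _ (by simpa using h.mul _ _ _ _ (h.star _ _ ha) ha)
  obtain ⟨d, hd⟩ := h.zero _ (by simpa using h.mul _ _ _ _ ha (h.star _ _ ha))
  have e1 : c = 1 := by
    have : ⟪ξ, (Star.star a * a) ξ⟫_ℂ = ⟪a ξ, a ξ⟫_ℂ := by
      rw [mapp, star_eq_adjoint, adjoint_inner_right]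
    rw [hc, smul_apply, oapp, inner_smul_right, inner_self_eq_norm_sq_to_K,
      inner_self_eq_norm_sq_to_K, hξ, h1] at this
    simpa using this
  rw [e1, one_smul] at hc
  have e2 : d = 1 := by
    have : (a * Star.star a * a) ξ = a ξ := by rw [mul_assoc, hc, mul_one]
    rw [hd, smul_mul_assoc, one_mul, smul_apply] at this
    have h0 : a ξ ≠ 0 := fun h0 => by simp [h0] at h1
    exact smul_left_injective ℂ h0 (this.trans (one_smul ℂ _).symm)
  rw [e2, one_smul] at hd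
  exact ⟨hc, hd⟩

/-- a global continuous section of unitaries -/
theorem sec (h : Gr X) {δ : ℝ} (hδ : 0 < δ) (w : ℝ → K →L[ℂ] K) (h0 : w 0 = 1)
    (hX : ∀ t ∈ Icc 0 δ, w t ∈ X t) (hu : ∀ t ∈ Icc 0 δ, w t ∈ _root_.unitary (K →L[ℂ] K))
    (hc : ∀ ξ, ContinuousOn (fun t => w t ξ) (Icc 0 δ)) :
    ∃ n : ℝ → K →L[ℂ] K, (∀ t, n t ∈ X t) ∧ (∀ t, n t ∈ _root_.unitary (K →L[ℂ] K)) ∧
      ∀ ξ, Continuous fun t => n t ξ := by
  have mδ : δ ∈ Icc 0 δ := ⟨hδ.le, le_rfl⟩
  let u : _root_.unitary (K →L[ℂ] K) := ⟨w δ, hu δ mδ⟩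
  have hz : ∀ k : ℤ, ((u ^ k : _root_.unitary (K →L[ℂ] K)) : K →L[ℂ] K) ∈ X (k * δ) := by
    intro k
    induction k using Int.induction_on with
    | zero => simpa [h0] using hX 0 ⟨le_rfl, hδ.le⟩
    | succ k ih =>
      have := h.mul _ _ _ _ ih (hX δ mδ)
      rw [zpow_add_one]
      push_cast at this ⊢
      rw [add_mul, one_mul]
      exact this
    | pred k ih =>
      have := h.mul _ _ _ _ ih (h.star _ _ (hX δ mδ))
      rw [zpow_sub_one]
      push_cast at this ⊢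
      rw [sub_mul, one_mul, sub_eq_add_neg]
      exact this
  have hf : ∀ t : ℝ, t - ⌊t / δ⌋ * δ ∈ Icc 0 δ := fun t => by
    have h1 := (le_div_iff₀ hδ).1 (Int.floor_le (t / δ))
    have h2 := (div_lt_iff₀ hδ).1 (Int.lt_floor_add_one (t / δ))
    constructor <;> linarith
  refine ⟨fun t => (u ^ ⌊t / δ⌋ : _root_.unitary (K →L[ℂ] K)) * w (t - ⌊t / δ⌋ * δ), fun t => ?_,
    fun t => mul_mem (u ^ ⌊t / δ⌋).2 (hu _ (hf t)), fun ξ => ?_⟩
  · simpa using h.mul _ _ _ _ (hz ⌊t / δ⌋) (hX _ (hf t))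
  · refine (locallyFinite_Icc_of_tendsto (f := fun k : ℤ => (k : ℝ) * δ)
      (g := fun k : ℤ => (k : ℝ) * δ + δ) (tendsto_intCast_atTop_atTop.atTop_mul_const hδ)
      (tendsto_atBot_add_const_right _ _
        ((tendsto_intCast_atBot_iff.2 tendsto_id).atBot_mul_const hδ))).continuous ?_
      (fun _ => isClosed_Icc) fun k => ?_
    · refine eq_univ_of_forall fun t => mem_iUnion.2 ⟨⌊t / δ⌋, ?_⟩
      have := hf t
      exact ⟨by linarith [this.1], by linarith [this.2]⟩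
    · have h1 : ContinuousOn (fun t : ℝ => ((u ^ k : _root_.unitary (K →L[ℂ] K)) : K →L[ℂ] K)
          (w (t - k * δ) ξ)) (Icc ((k : ℝ) * δ) (k * δ + δ)) :=
        (ContinuousLinearMap.continuous _).comp_continuousOn ((hc ξ).comp (by fun_prop)
          fun t ht => ⟨by linarith [ht.1], by linarith [ht.2]⟩)
      refine h1.congr fun t ht => ?_
      rcases eq_or_lt_of_le ht.2 with e | e
      · have h2 : ⌊t / δ⌋ = k + 1 := by
          rw [Int.floor_eq_iff, le_div_iff₀ hδ, div_lt_iff₀ hδ]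
          push_cast
          constructor <;> linarith
        have h3 : t - ((k + 1 : ℤ) : ℝ) * δ = 0 := by push_cast; linarith
        have h4 : t - (k : ℝ) * δ = δ := by linarith
        simp only [h2, h3, h4, h0, mul_one, zpow_add_one]
        rfl
      · have h2 : ⌊t / δ⌋ = k := by
          rw [Int.floor_eq_iff, le_div_iff₀ hδ, div_lt_iff₀ hδ]
          exact ⟨ht.1, by linarith⟩
        simp only [h2]
        rfl

/-- from a global continuous section of unitaries to a one parameter group -/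
theorem op_of_sec (h : Gr X) {ξ : K} (hξ : ‖ξ‖ = 1) {n : ℝ → K →L[ℂ] K} (hX : ∀ t, n t ∈ X t)
    (hu : ∀ t, n t ∈ _root_.unitary (K →L[ℂ] K)) (hc : ∀ ξ, Continuous fun t => n t ξ) :
    ∃ V : ℝ → K →L[ℂ] K, OP V ∧ ∀ t, V t ∈ X t := by
  have hn : ∀ t x, ‖n t x‖ = ‖x‖ := fun t => norm_unit (hu t).1
  let ω : ℝ × ℝ → ℂ := fun p => ⟪n (p.1 + p.2) ξ, n p.1 (n p.2 ξ)⟫_ℂ
  have hω : ∀ s t, n s * n t = ω (s, t) • n (s + t) := fun s t => by
    obtain ⟨c, e⟩ := h.eq_smul (hX (s + t)) (hu _).2 (h.mul _ _ _ _ (hX s) (hX t))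
    have : ω (s, t) = c := by
      change ⟪n (s + t) ξ, (n s * n t) ξ⟫_ℂ = c
      rw [e, smul_apply, inner_smul_right, inner_self_eq_norm_sq_to_K, hn, hξ]
      simp
    rw [this, e]
  have h1 : ∀ p, ‖ω p‖ = 1 := fun p => by
    have := congrArg (fun T : K →L[ℂ] K => ‖T ξ‖) (hω p.1 p.2)
    simp only [mapp, smul_apply, norm_smul, hn, hξ, mul_one] at this
    exact this.symm
  have cω : Continuous ω := ((hc ξ).comp (by fun_prop)).inner
    (cont_app (U := fun p : ℝ × ℝ => n p.1) (fun _ => (hu _).1)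
      (fun x => (hc x).comp continuous_fst) ((hc ξ).comp continuous_snd))
  obtain ⟨b, cb, e⟩ := exists_arg ((0, 0) : ℝ × ℝ) cω h1
  have co : ∀ s t r, ω (s, t) * ω (s + t, r) = ω (t, r) * ω (s, t + r) := fun s t r => by
    have h2 : n s * n t * n r = n s * (n t * n r) := mul_assoc _ _ _
    rw [hω, hω t r, smul_mul_assoc, mul_smul_comm, hω, hω, smul_smul, smul_smul, add_assoc] at h2
    have h0 : n (s + (t + r)) ξ ≠ 0 := fun h0 => by simpa [h0, hξ] using hn (s + (t + r)) ξ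
    exact smul_left_injective ℂ h0 (congrArg (fun T : K →L[ℂ] K => T ξ) h2)
  obtain ⟨γ, cγ, eγ⟩ := cobd (β := fun s t => b (s, t)) cb fun s t r => by
    have := const_of_exp (D := fun p : ℝ × ℝ × ℝ => b (p.1, p.2.1) + b (p.1 + p.2.1, p.2.2)
      - (b (p.2.1, p.2.2) + b (p.1, p.2.1 + p.2.2))) (by fun_prop) (fun p => by
        have h2 : ∀ p, ω p ≠ 0 := fun p h => by simpa [h] using h1 p
        push_cast
        rw [sub_mul, add_mul, add_mul, Complex.exp_sub, Complex.exp_add, Complex.exp_add, e, e, e, e,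
          co, div_self (mul_ne_zero (h2 _) (h2 _))]) (s, t, r) (0, 0, 0)
    simp only [add_zero, sub_self] at this
    linarith
  have add : ∀ s t, Complex.exp (-(γ (s + t) * Complex.I)) • n (s + t)
      = Complex.exp (-(γ s * Complex.I)) • n s * Complex.exp (-(γ t * Complex.I)) • n t := by
    intro s t
    rw [smul_mul_assoc, mul_smul_comm, hω, ← e, smul_smul, smul_smul, ← Complex.exp_add,
      ← Complex.exp_add, eγ]
    congr 2
    push_cast
    ring
  have unit : ∀ t, Star.star (Complex.exp (-(γ t * Complex.I)) • n t)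
      * Complex.exp (-(γ t * Complex.I)) • n t = 1 := fun t => by
    rw [star_smul, smul_mul_assoc, mul_smul_comm, (hu t).1, smul_smul, Complex.star_def,
      ← Complex.exp_conj, ← Complex.exp_add]
    simp
  refine ⟨fun t => Complex.exp (-(γ t * Complex.I)) • n t, ⟨?_, add, unit, fun x => ?_⟩,
    fun t => h.smul _ _ _ (hX t)⟩
  · have h2 := add 0 0
    rw [add_zero] at h2
    have h3 := congrArg (Star.star (Complex.exp (-(γ (0 : ℝ) * Complex.I)) • n 0) * ·) h2
    simp only [← mul_assoc, unit 0, one_mul] at h3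
    exact h3.symm
  · simp only [smul_apply]
    exact (show Continuous fun t => Complex.exp (-(γ t * Complex.I)) by fun_prop).smul (hc x)

/-- **Projective lift**: only continuity on the right of `0` is needed. -/
theorem lift_op [Nontrivial K] (h : Gr X) {δ : ℝ} (hδ : 0 < δ) {W : ℝ → K →L[ℂ] K}
    (hX : ∀ t ∈ Icc 0 δ, W t ∈ X t) (hc : ∀ ξ, ContinuousOn (fun t => W t ξ) (Icc 0 δ))
    (h0 : W 0 ≠ 0) :
    ∃ V : ℝ → K →L[ℂ] K, OP V ∧ ∀ t, V t ∈ X t ∧ ∀ a ∈ X t, ∃ c : ℂ, a = c • V t := by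
  obtain ⟨ξ, hξ⟩ := exists_norm_eq K zero_le_one
  obtain ⟨c, e⟩ := h.zero _ (hX 0 ⟨le_rfl, hδ.le⟩)
  have hc0 : c ≠ 0 := fun h1 => h0 (by rw [e, h1, zero_smul])
  have h1 : W 0 ξ ≠ 0 := by
    rw [e, smul_apply, oapp]
    exact smul_ne_zero hc0 fun h2 => by simp [h2] at hξ
  obtain ⟨ε, hε, h2⟩ := Metric.mem_nhdsWithin_iff.1
    ((hc ξ 0 ⟨le_rfl, hδ.le⟩).eventually_ne h1)
  have hη : 0 < min δ (ε / 2) := lt_min hδ (by linarith)
  have hs : Icc 0 (min δ (ε / 2)) ⊆ Icc 0 δ := Icc_subset_Icc_right (min_le_left _ _)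
  have h3 : ∀ t ∈ Icc 0 (min δ (ε / 2)), ‖c⁻¹ • W t ξ‖ ≠ 0 := fun t ht =>
    norm_ne_zero_iff.2 (smul_ne_zero (inv_ne_zero hc0) (h2 ⟨by
      rw [Metric.mem_ball, Real.dist_eq, sub_zero, abs_of_nonneg ht.1]
      linarith [ht.2, min_le_right δ (ε / 2)], hs ht⟩))
  have mX : ∀ t ∈ Icc 0 (min δ (ε / 2)), ((‖c⁻¹ • W t ξ‖⁻¹ : ℝ) : ℂ) • c⁻¹ • W t ∈ X t :=
    fun t ht => h.smul _ _ _ (h.smul _ _ _ (hX t (hs ht)))
  obtain ⟨n, n1, n2, n3⟩ := h.sec hη (fun t => ((‖c⁻¹ • W t ξ‖⁻¹ : ℝ) : ℂ) • c⁻¹ • W t)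
    (by rw [e, smul_apply, oapp, smul_smul, smul_smul c⁻¹, inv_mul_cancel₀ hc0, one_smul, hξ]; simp [smul_smul, hc0])
    mX (fun t ht => h.unitary (mX t ht) hξ (by
      rw [smul_apply, smul_apply, norm_smul, Complex.norm_real, norm_inv, norm_norm,
        inv_mul_cancel₀ (h3 t ht)])) fun x => by
      simp only [smul_apply]
      exact (Complex.continuous_ofReal.comp_continuousOn
        ((((hc ξ).mono hs).const_smul c⁻¹).norm.inv₀ h3)).smul (((hc x).mono hs).const_smul c⁻¹)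
  obtain ⟨V, hV, v⟩ := h.op_of_sec hξ n1 n2 n3
  exact ⟨V, hV, fun t => ⟨v t, fun a ha => h.eq_smul (v t) (hV.unit' t) ha⟩⟩

end Gr

/-- **(L)** projective lift and Stone, in the form asked for -/
theorem lift [Nontrivial K] (X : ℝ → Set (K →L[ℂ] K))
    (mul : ∀ s t a b, a ∈ X s → b ∈ X t → a * b ∈ X (s + t))
    (st : ∀ t a, a ∈ X t → star a ∈ X (-t)) (smul : ∀ t (c : ℂ) a, a ∈ X t → c • a ∈ X t)
    (zero : ∀ a, a ∈ X 0 → ∃ c : ℂ, a = c • 1) (W : ℝ → K →L[ℂ] K) (hX : ∀ t, W t ∈ X t)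
    (hc : ∀ ξ, Continuous fun t => W t ξ) {c₀ : ℂ} (h0 : W 0 = c₀ • 1) (hc₀ : c₀ ≠ 0) :
    ∃ H : POM ℝ K, H.IsP ∧ ∀ t, H.f (ex t id) ∈ X t ∧ ∀ a ∈ X t, ∃ c : ℂ, a = c • H.f (ex t id) := by
  obtain ⟨V, hV, v⟩ := Gr.lift_op ⟨mul, st, smul, zero⟩ one_pos (fun t _ => hX t)
    (fun ξ => (hc ξ).continuousOn) (by rw [h0]; exact smul_ne_zero hc₀ one_ne_zero)
  obtain ⟨H, h1, h2, -⟩ := stone hV
  exact ⟨H, h1, fun t => by rw [h2]; exact v t⟩

/-- **(P)** product of two commuting projection valued measures, in the form asked for -/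
theorem prod {Y Z : Type} [MeasurableSpace Y] [MeasurableSpace Z] [StandardBorelSpace Y]
    [StandardBorelSpace Z] [Nonempty Y] [Nonempty Z] {E : POM Y K} {H : POM Z K} (hE : E.IsP)
    (hH : H.IsP) (hc : ∀ f g, Bd f → Bd g → E.f f * H.f g = H.f g * E.f f) :
    ∃ θ : POM (Y × Z) K, θ.IsP ∧
      ∀ f g, Bd f → Bd g → θ.f (fun p => f p.1 * g p.2) = E.f f * H.f g := by
  obtain ⟨J, h1, h2, h3⟩ := joint hE hH fun A B hA hB => hc _ _ (bd_ind1 hA) (bd_ind1 hB)
  exact ⟨J, h1, fun f g hf hg => joint_mul h1 h2 h3 hf hg⟩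

end Vale.Agent.P092SB
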