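import Vale.Agent.P092RD.Pom3
import Vale.Agent.P352X.SN.Main

/-!
P092 (helper40): Stone's theorem in the language of `POM`, and the joint spectral measure of two
commuting projection valued measures.
-/

set_option linter.all false

open scoped InnerProductSpace ENNReal NNReal ComplexConjugate
open MeasureTheory Filter Topology ContinuousLinearMap Set

namespace Vale.Agent.P092SB

open Vale.Agent.P092CP (Bd)
open Vale.Agent.P092RD Vale.Agent.P092RD.POM

variable {K : Type} [NormedAddCommGroup K] [InnerProductSpace ℂ K] [CompleteSpace K]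

/-- a strongly continuous one parameter unitary group -/
structure OP (U : ℝ → K →L[ℂ] K) : Prop where
  zero : U 0 = 1
  add : ∀ s t, U (s + t) = U s * U t
  unit : ∀ t, star (U t) * U t = 1
  cont : ∀ ξ, Continuous fun t => U t ξ

theorem inner_unit {u : K →L[ℂ] K} (h : star u * u = 1) (x y : K) : ⟪u x, u y⟫_ℂ = ⟪x, y⟫_ℂ := by
  rw [← adjoint_inner_right, ← star_eq_adjoint, ← mapp, h, oapp]

theorem norm_unit {u : K →L[ℂ] K} (h : star u * u = 1) (x : K) : ‖u x‖ = ‖x‖ := by
  rw [@norm_eq_sqrt_re_inner ℂ, @norm_eq_sqrt_re_inner ℂ _ _ _ _ x, inner_unit h]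

/-- joint continuity of a strongly continuous family of isometries -/
theorem cont_app {T : Type} [TopologicalSpace T] {U : T → K →L[ℂ] K}
    (h : ∀ t, star (U t) * U t = 1) (hc : ∀ ξ, Continuous fun t => U t ξ) {x : T → K}
    (hx : Continuous x) : Continuous fun t => U t (x t) := by
  refine continuous_iff_continuousAt.2 fun t₀ => ?_
  have h1 : Tendsto (fun t => U t (x t₀)) (𝓝 t₀) (𝓝 (U t₀ (x t₀))) := (hc (x t₀)).tendsto t₀
  refine h1.congr_dist ?_
  have h2 : Tendsto (fun t => dist (x t₀) (x t)) (𝓝 t₀) (𝓝 (dist (x t₀) (x t₀))) :=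
    tendsto_const_nhds.dist (hx.tendsto t₀)
  rw [dist_self] at h2
  refine h2.congr fun t => ?_
  rw [dist_eq_norm, dist_eq_norm, ← map_sub, norm_unit (h t)]

namespace OP

variable {U : ℝ → K →L[ℂ] K}

theorem neg_mul (h : OP U) (t : ℝ) : U (-t) * U t = 1 := by rw [← h.add, neg_add_cancel, h.zero]

theorem mul_neg (h : OP U) (t : ℝ) : U t * U (-t) = 1 := by rw [← h.add, add_neg_cancel, h.zero]

theorem star_eq (h : OP U) (t : ℝ) : star (U t) = U (-t) := by
  rw [← mul_one (star (U t)), ← h.mul_neg t, ← mul_assoc, h.unit, one_mul]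

theorem unit' (h : OP U) (t : ℝ) : U t * star (U t) = 1 := by rw [h.star_eq, h.mul_neg]

theorem comm (h : OP U) (s t : ℝ) : U s * U t = U t * U s := by rw [← h.add, ← h.add, add_comm]

theorem norm (h : OP U) (t : ℝ) (ξ : K) : ‖U t ξ‖ = ‖ξ‖ := norm_unit (h.unit t) ξ

theorem one : OP fun _ : ℝ => (1 : K →L[ℂ] K) :=
  ⟨rfl, fun _ _ => (one_mul _).symm, fun _ => by rw [star_one, one_mul], fun _ => continuous_const⟩

end OP

/-- the exponentials of a measurable function form a one parameter group -/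
theorem op_ex {Y : Type} [MeasurableSpace Y] {θ : POM Y K} (hθ : θ.IsP) {D : Y → ℝ}
    (hD : Measurable D) : OP fun t => θ.f (ex t D) where
  zero := by
    rw [← hθ.one]
    congr 1
    ext y
    simp [ex]
  add s t := by
    rw [← hθ.mul _ _ (bd_ex s hD) (bd_ex t hD)]
    congr 1
    ext y
    simp [ex, add_mul, Complex.exp_add]
  unit t := (hθ.star_mul_self (bd_ex t hD) (norm_ex t D)).1
  cont ξ := continuous_iff_continuousAt.2 fun t =>
    θ.tendsto_strong (C := 1) (fun s => bd_ex s hD) (bd_ex t hD) (fun s y => (norm_ex s D y).le)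
      (fun y => (show Continuous fun s : ℝ => ex s D y by unfold ex; fun_prop).tendsto t) ξ

/-- a calculus gives a projection valued measure -/
noncomputable def pomOf {X : Type} [MeasurableSpace X] (C : P352X.SN.Calc X K) : POM X K where
  f := C.Phi
  ν := C.nu
  fin ξ := by
    haveI := C.fin ξ
    rw [← ofReal_measureReal (measure_ne_top _ _), C.nu_univ, ← ofReal_norm_eq_enorm,
      ENNReal.ofReal_pow (norm_nonneg _)]
  rep g hg ξ := C.inner ⟨hg.meas, hg.bdd⟩ ξ

theorem pomOf_isP {X : Type} [MeasurableSpace X] (C : P352X.SN.Calc X K) : (pomOf C).IsP :=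
  ⟨C.one, fun g h hg hh => C.mul ⟨hg.meas, hg.bdd⟩ ⟨hh.meas, hh.bdd⟩⟩

/-- the plane -/
abbrev E2 : Type := EuclideanSpace ℝ (Fin 2)

/-- Stone's theorem for two commuting one parameter groups -/
theorem stone₂ {U V : ℝ → K →L[ℂ] K} (hU : OP U) (hV : OP V)
    (hc : ∀ s t, U s * V t = V t * U s) :
    ∃ θ : POM (ℝ × ℝ) K, θ.IsP ∧ (∀ t, θ.f (ex t Prod.fst) = U t) ∧
      ∀ t, θ.f (ex t Prod.snd) = V t := by
  have hp : P352X.SN.IsPair fun p y : E2 => inner ℝ p y :=
    ⟨2, MeasurableEquiv.refl _, ContinuousLinearEquiv.refl ℝ _, fun _ _ => rfl⟩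
  have hW : P352X.SN.URep fun (y : E2) (v : K) => U (y 0) (V (y 1) v) := by
    refine ⟨fun v => ?_, fun x y v => ?_, fun x v w => ?_, fun v => ?_⟩
    · change U 0 (V 0 v) = v
      rw [hU.zero, hV.zero]; rfl
    · change U (x 0 + y 0) (V (x 1 + y 1) v) = _
      rw [hU.add, hV.add, mapp, mapp, ← mapp (U (y 0)), hc, mapp]
    · rw [inner_unit (hU.unit _), inner_unit (hV.unit _)]
    · exact cont_app (U := fun y : E2 => U (y 0)) (fun _ => hU.unit _)
        (fun ξ => (hU.cont ξ).comp (by fun_prop)) ((hV.cont v).comp (by fun_prop))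
  obtain ⟨C⟩ := P352X.SN.exists_BC hp hW
  have hr : Measurable fun p : E2 => (p 0, p 1) := by fun_prop
  refine ⟨(pomOf C.toCalc).map _ hr, (pomOf_isP _).map hr, fun t => ?_, fun t => ?_⟩
  · ext v
    have := C.Phi_ch (EuclideanSpace.single 0 t) v
    simp only [PiLp.single_apply, if_true, show ((1 : Fin 2) = 0) = False by simp, if_false,
      hV.zero, oapp] at this
    rw [← this]
    change C.Phi _ v = C.Phi _ v
    congr 2
    ext p
    simp [ex, P352X.SN.ch, EuclideanSpace.inner_single_right, mul_comm]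
  · ext v
    have := C.Phi_ch (EuclideanSpace.single 1 t) v
    simp only [PiLp.single_apply, if_true, show ((0 : Fin 2) = 1) = False by simp, if_false,
      hU.zero, oapp] at this
    rw [← this]
    change C.Phi _ v = C.Phi _ v
    congr 2
    ext p
    simp [ex, P352X.SN.ch, EuclideanSpace.inner_single_right, mul_comm]

/-- **Stone's theorem** -/
theorem stone {U : ℝ → K →L[ℂ] K} (hU : OP U) :
    ∃ θ : POM ℝ K, θ.IsP ∧ (∀ t, θ.f (ex t id) = U t) ∧
      ∀ T : K →L[ℂ] K, (∀ t, T * U t = U t * T) → ∀ g, Bd g → T * θ.f g = θ.f g * T := by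
  obtain ⟨θ, h1, h2, -⟩ := stone₂ hU OP.one fun s t => by rw [mul_one, one_mul]
  refine ⟨θ.map _ measurable_fst, h1.map _, h2, fun T hT g hg => ?_⟩
  refine tw_of_ex _ _ T (fun t => ?_) hg
  change T * θ.f (ex t Prod.fst) = θ.f (ex t Prod.fst) * T
  rw [h2, hT]

/-- two real `POM` with the same exponentials agree -/
theorem ext_ex (θ θ' : POM ℝ K) (h : ∀ t, θ.f (ex t id) = θ'.f (ex t id)) {g : ℝ → ℂ}
    (hg : Bd g) : θ.f g = θ'.f g := by
  simpa using tw_of_ex θ θ' (ContinuousLinearMap.id ℂ K) (fun t => by simpa using h t) hg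

/-- **Joint spectral measure** of two commuting projection valued measures -/
theorem joint {Y Z : Type} [MeasurableSpace Y] [MeasurableSpace Z] [StandardBorelSpace Y]
    [StandardBorelSpace Z] [Nonempty Y] [Nonempty Z] {E : POM Y K} {θ : POM Z K} (hE : E.IsP)
    (hθ : θ.IsP)
    (hc : ∀ A B, MeasurableSet A → MeasurableSet B → E.P A * θ.P B = θ.P B * E.P A) :
    ∃ J : POM (Y × Z) K, J.IsP ∧ (∀ g, Bd g → J.f (g ∘ Prod.fst) = E.f g) ∧
      ∀ h, Bd h → J.f (h ∘ Prod.snd) = θ.f h := by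
  have eY := measurableEmbedding_embeddingReal Y
  have eZ := measurableEmbedding_embeddingReal Z
  have hcc : ∀ g h, Bd g → Bd h → E.f g * θ.f h = θ.f h * E.f g := fun g h hg hh =>
    comm_of_P (fun B hB => (comm_of_P (fun A hA => (hc A B hA hB).symm) hg).symm) hh
  obtain ⟨J, h1, h2, h3⟩ := stone₂ (op_ex hE eY.measurable) (op_ex hθ eZ.measurable)
    fun s t => hcc _ _ (bd_ex s eY.measurable) (bd_ex t eZ.measurable)
  have hr : Measurable (Prod.map eY.invFun eZ.invFun) :=
    eY.measurable_invFun.prodMap eZ.measurable_invFun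
  refine ⟨J.map _ hr, h1.map hr, fun g hg => ?_, fun g hg => ?_⟩
  · have := ext_ex (J.map _ measurable_fst) (E.map _ eY.measurable) h2
      (bd_comp hg eY.measurable_invFun)
    rw [map_f, map_f, Function.comp_assoc g _ (embeddingReal Y), eY.leftInverse_invFun.comp_eq_id]
      at this
    exact this
  · have := ext_ex (J.map _ measurable_snd) (θ.map _ eZ.measurable) h3
      (bd_comp hg eZ.measurable_invFun)
    rw [map_f, map_f, Function.comp_assoc g _ (embeddingReal Z), eZ.leftInverse_invFun.comp_eq_id]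
      at this
    exact this

/-- the joint measure on rectangles and product functions -/
theorem joint_mul {Y Z : Type} [MeasurableSpace Y] [MeasurableSpace Z] {E : POM Y K} {θ : POM Z K}
    {J : POM (Y × Z) K} (hJ : J.IsP) (h1 : ∀ g, Bd g → J.f (g ∘ Prod.fst) = E.f g)
    (h2 : ∀ h, Bd h → J.f (h ∘ Prod.snd) = θ.f h) {g : Y → ℂ} {h : Z → ℂ} (hg : Bd g)
    (hh : Bd h) : J.f (fun p => g p.1 * h p.2) = E.f g * θ.f h := by
  rw [← h1 g hg, ← h2 h hh, ← hJ.mul _ _ (bd_comp hg measurable_fst) (bd_comp hh measurable_snd)]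
  rfl

theorem joint_P {Y Z : Type} [MeasurableSpace Y] [MeasurableSpace Z] {E : POM Y K} {θ : POM Z K}
    {J : POM (Y × Z) K} (hJ : J.IsP) (h1 : ∀ g, Bd g → J.f (g ∘ Prod.fst) = E.f g)
    (h2 : ∀ h, Bd h → J.f (h ∘ Prod.snd) = θ.f h) {A : Set Y} {B : Set Z} (hA : MeasurableSet A)
    (hB : MeasurableSet B) : J.P (A ×ˢ B) = E.P A * θ.P B := by
  rw [P, P, P, ← joint_mul hJ h1 h2 (bd_ind1 hA) (bd_ind1 hB)]
  congr 1
  ext p
  by_cases ha : p.1 ∈ A <;> by_cases hb : p.2 ∈ B <;> simp [indicator, ha, hb]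

/-- a one parameter group which commutes with a projection valued measure: joint measure -/
theorem joint_op {Y : Type} [MeasurableSpace Y] [StandardBorelSpace Y] [Nonempty Y] {E : POM Y K}
    (hE : E.IsP) {U : ℝ → K →L[ℂ] K} (hU : OP U)
    (hc : ∀ A t, MeasurableSet A → E.P A * U t = U t * E.P A) :
    ∃ J : POM (Y × ℝ) K, J.IsP ∧ (∀ g, Bd g → J.f (g ∘ Prod.fst) = E.f g) ∧
      ∀ t, J.f (ex t Prod.snd) = U t := by
  obtain ⟨θ, h1, h2, h3⟩ := stone hU
  obtain ⟨J, j1, j2, j3⟩ := joint hE h1 fun A B hA hB =>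
    h3 _ (fun t => hc A t hA) _ (bd_ind1 hB)
  exact ⟨J, j1, j2, fun t => (j3 _ (bd_ex t measurable_id)).trans (h2 t)⟩

end Vale.Agent.P092SB
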